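import Vale.Agent.P014Y.Mu.St
import Vale.Agent.P014Y.Bo.Lv1
import Vale.Agent.P014Y.Rd.St3

/-! # P014Y, block Rg: the anchor for one curve with a reducible image (words, rows, glue) -/

set_option autoImplicit false
set_option linter.all false

noncomputable section

namespace Vale.Agent.P014Y.Rg

open Matrix Filter
open Vale.Agent.P022 (GQ)
open Vale.Agent.P022D.W (dec)
open Vale.Agent.P014U
open P014Y.F (Crv Fld)
open Tp (G3 Rh Tr Im Lz Zc tw rho nz)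
open Mu (rb tb Zx Gq Gt)
open Bo (dg TWS)

/-- characters modulo three -/
abbrev Ch : Type := GQ →* ZMod 3

/-- a stable line with the character `θ`; the quotient has the character `θ'` -/
structure Lp (ρ : GQ → G3) (θ θ' : Ch) : Prop where
  ex : ∃ v : Fin 2 → ZMod 3, v ≠ 0 ∧ ∀ g, ρ g *ᵥ v = θ g • v
  det : ∀ g, (ρ g).det = θ g * θ' g

/-- the order of the group of a plane -/
def nr {e : Crv} (b : Fld e) (ρ : GQ → G3) (J c : ℕ) {n : ℕ} (χ : GQ → ZMod n) : ℕ :=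
  Nat.card (Zc b.Γ (b.T c) ρ J (fun g => (χ g).val) (e.P 3))

/-- the image is reducible -/
def Ri (e : Crv) : Prop := ∃ v : Fin 2 → ZMod 3, v ≠ 0 ∧ ∀ g, ∃ t : ZMod 3, rho e g *ᵥ v = t • v

/-- the image contains `-1` -/
def Mo (ρ : GQ → G3) : Prop := ∃ g, ρ g = -1

/-- the two characters are not trivial -/
def Nt (θ θ' : Ch) : Prop := θ ≠ 1 ∧ θ' ≠ 1

/-- the characters -/
def RED : Prop := ∀ e : Crv, Ri e → ∃ θ θ', Lp (rho e) θ θ' ∧ (¬ Rd.Eis e → Nt θ θ')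

/-- an extension which is not abelian -/
def RH1 : Prop := ∀ (e : Crv) θ θ', Lp (rho e) θ θ' → ∃ ρ, Rh ρ e.S.toFinset ∧
  (∃ g h, ρ g * ρ h ≠ ρ h * ρ g) ∧ Tr e.a e.S ρ ∧ Tr e.a e.S (tw ρ) ∧
  (∀ b : Fld e, Im b.j ρ) ∧ Lp ρ θ θ' ∧ Lp (tw ρ) θ' θ ∧ (Nt θ θ' → Mo ρ)

/-- **the anchor at one layer for a plane with the traces of the curve** -/
def ONR (C : (GQ → G3) → Prop) : Prop := ∀ (e : Crv) ρ, Rh ρ e.S.toFinset → C ρ →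
  (∃ g h, ρ g * ρ h ≠ ρ h * ρ g) → Tr e.a e.S ρ → Tr e.a e.S (tw ρ) → ∃ T : ℕ,
  ∀ b : Fld e, T ≤ b.δ' → Im b.j ρ → ∀ B : ℕ, ∃ k₀, ∀ k, k₀ ≤ k → ∀ c χ, Lz b k c χ →
  nr b ρ (3 * 3 ^ k) c χ ≠ 0 → nr b ρ (3 * 3 ^ k) c χ ≤ 3 ^ B →
  nr b (tw ρ) (3 * 3 ^ k) c χ ≠ 0 → nr b (tw ρ) (3 * 3 ^ k) c χ ≤ 3 ^ B →
  ∃ l l', 3 ^ (2 * (l + l')) ≤ nr b ρ (3 * 3 ^ k) c χ * nr b (tw ρ) (3 * 3 ^ k) c χ ∧
    b.An e.S c (fun g => (χ g).val) l ∧ b.An e.S c (fun g => (χ g).val) l'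

/-- the two step count -/
def UP2 : Prop := ∀ (e : Crv) (b : Fld e) ρ θ θ', (Lp ρ θ θ' ∨ Lp ρ θ' θ) →
  ∀ (J c n : ℕ) (χ : GQ → ZMod n), nr b (dg θ θ') J c χ ≠ 0 →
  nr b ρ J c χ ≠ 0 ∧ nr b ρ J c χ ≤ nr b (dg θ θ') J c χ

/-- counting for the split plane -/
def CN0 : Prop := ∀ (e : Crv) (b : Fld e) θ θ', Lp (rho e) θ θ' → ∀ k i : ℕ, ∃ B : ℕ,
  ∀ (c n : ℕ) (χ : GQ → ZMod n), c.primeFactors.card ≤ k → nr b (dg θ θ') i c χ ≤ 3 ^ B ∧ ∀ J,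
  (∀ x ∈ Zx (dg θ θ') b.Γ (b.T c) J (fun g => (χ g).val) (e.P 3), ∀ g, tb J ^ i • x g = 0) →
  nr b (dg θ θ') J c χ ≠ 0 ∧ nr b (dg θ θ') J c χ ≤ nr b (dg θ θ') i c χ

/-- **from the split plane to the curve** -/
def MULG : Prop := ∀ (e : Crv) (b : Fld e) θ θ', Lp (rho e) θ θ' → ∀ k c χ, Lz b k c χ →
  ∀ J, 2 * J ≤ 3 * 3 ^ k → nr b (dg θ θ') J c χ ≤ nz b (2 * J) c χ

/-- the form which is used -/
def MUX : Prop := ∀ (e : Crv) (b : Fld e) θ θ', Lp (rho e) θ θ' → ∀ i B : ℕ, ∃ J₀, ∀ k c χ,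
  Lz b k c χ → J₀ ≤ 3 * 3 ^ k → nr b (dg θ θ') (3 * 3 ^ k) c χ ≤ nr b (dg θ θ') i c χ →
  nr b (dg θ θ') i c χ ≤ 3 ^ B →
  ∃ J ≤ 3 * 3 ^ k, nr b (dg θ θ') (3 * 3 ^ k) c χ ≤ nz b J c χ

theorem mux_of (h : MULG) : MUX := fun e b θ θ' p i _ =>
  ⟨2 * i, fun k c χ z l u _ => ⟨_, l, u.trans (h e b θ θ' p k c χ z i l)⟩⟩

/-- the layer is a level of a tower -/
def TW1 : Prop := ∀ (e : Crv) (b : Fld e) m n c χ, 0 < m → Lz b (n + 1) c χ →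
  c.primeFactors.card ≤ m → (∀ q : ℕ, q.Prime → q ∣ c → Gt b (n + 2) ∅ q ∧ Gq e m q) →
  b.Tw m n c fun g => (χ g).val

/-- **the export of the block Rk: a tower which kills the split plane** -/
def KZ (D : Ch → Ch → Prop) : Prop := ∀ (e : Crv) (b : Fld e) θ θ', Lp (rho e) θ θ' → D θ θ' →
  ∃ k m i : ℕ, ∀ n, ∃ (c : ℕ) (χ : GQ → ZMod (3 * 3 ^ (n + 1))), Lz b (n + 1) c χ ∧
    c.primeFactors.card ≤ k ∧ (∀ q : ℕ, q.Prime → q ∣ c → Gt b (n + 2) ∅ q ∧ Gq e m q) ∧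
    ∀ J ≤ 3 * 3 ^ (n + 1), ∀ x ∈ Zx (dg θ θ') b.Γ (b.T c) J (fun g => (χ g).val) (e.P 3),
      ∀ g, tb J ^ i • x g = 0

/-- **the anchor for a reducible image** -/
def ANR : Prop := ∀ e : Crv, Ri e → ∃ T : ℕ, ∀ b : Fld e, T ≤ b.δ' → b.Anc

theorem anc1 {C D} (hO : ONR C) (hK : KZ D) (h1 : RH1) (hU : UP2) (hD : CN0) (hM : MUX)
    (hW : TW1) (hS : TWS) (hC : Mu.CNT) {e : Crv} {θ θ' : Ch} (p : Lp (rho e) θ θ') (d : D θ θ')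
    (cd : ∀ ρ, (Nt θ θ' → Mo ρ) → C ρ) : ∃ T : ℕ, ∀ b : Fld e, T ≤ b.δ' → b.Anc := by
  obtain ⟨ρ, r, nc, t, t', im, l1, l2, mo⟩ := h1 e θ θ' p
  obtain ⟨T, hT⟩ := hO e ρ r (cd ρ mo) nc t t'
  refine ⟨T, fun b le => ?_⟩
  obtain ⟨k, m, i, H⟩ := hK e b θ θ' p d
  choose c χ lz cc gq z using H
  obtain ⟨B, hB⟩ := hC e b k (i + i)
  obtain ⟨B', hB'⟩ := hD e b θ θ' p k i
  obtain ⟨J₀, hJ⟩ := hM e b θ θ' p i B'
  obtain ⟨k₀, hk⟩ := hT b le (im b) B'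
  obtain ⟨v, v0, hv⟩ := p.ex
  have w := fun n J l => (hB (c n) (fun g => (χ n g).val) (cc n)).2 J
    (hS (rb e) θ θ' v v0 hv p.det _ _ J _ _ i (z n J l))
  have big : ∀ J, ∀ᶠ n in atTop, J ≤ 3 * 3 ^ (n + 1) := fun J =>
    (eventually_ge_atTop J).mono fun n hn => by
      have := Nat.lt_pow_self (n := n + 1) (show 1 < 3 by norm_num)
      omega
  refine ⟨m + k + 1, B, c, fun n g => (χ n g).val, .of_forall fun n => hW e b _ n _ _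
    (Nat.succ_pos _) (lz n) (by have := cc n; omega) fun q h s =>
      ⟨(gq n q h s).1, (gq n q h s).2.mono (by omega)⟩,
    fun J => (big J).mono fun n l => (w n J l).2.trans (hB _ _ (cc n)).1, i + i,
    ((big J₀).and (eventually_ge_atTop k₀)).mono fun n hn => ?_⟩
  obtain ⟨N, N'⟩ := hB' _ _ (χ n) (cc n)
  obtain ⟨n0, n1⟩ := N' _ (z n _ le_rfl)
  obtain ⟨a1, a2⟩ := hU e b ρ θ θ' (.inl l1) _ _ _ _ n0
  obtain ⟨b1, b2⟩ := hU e b _ θ θ' (.inr l2) _ _ _ _ n0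
  obtain ⟨l, l', u, x, x'⟩ := hk (n + 1) (by omega) _ _ (lz n) a1 (a2.trans (n1.trans N)) b1
    (b2.trans (n1.trans N))
  replace u := u.trans (Nat.mul_le_mul a2 b2)
  obtain ⟨J, le, f⟩ := hJ _ _ _ (lz n) hn.1 n1 N
  have key : ∀ s, s + s ≤ l + l' → 3 ^ (2 * s) ≤ _ := fun s hs =>
    (Nat.mul_self_le_mul_self_iff.1 (((pow_add 3 _ _).symm.trans_le
      (Nat.pow_le_pow_right three_pos (by omega))).trans u)).trans (f.trans (w n J le).2)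
  rcases le_total l l' with h | h
  exacts [⟨l, key l (by omega), x⟩, ⟨l', key l' (by omega), x'⟩]

/-- **the export, with the block Rd** -/
theorem anr (h3 : Rd.RED3) (hO : ONR Mo) (hK : KZ Nt) (h0 : RED) (h1 : RH1) (hU : UP2) (hD : CN0)
    (hM : MUX) (hW : TW1) (hS : TWS) (hC : Mu.CNT) : ANR := fun e ir => by
  by_cases es : Rd.Eis e
  · exact h3 e es
  obtain ⟨θ, θ', p, nt⟩ := h0 e ir
  exact anc1 hO hK h1 hU hD hM hW hS hC p (nt es) fun _ h => h (nt es)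

/-- **the export, with the anchor for every plane** -/
theorem anr' (hO : ONR fun _ => True) (hK : KZ fun _ _ => True) (h0 : RED) (h1 : RH1) (hU : UP2)
    (hD : CN0) (hM : MUX) (hW : TW1) (hS : TWS) (hC : Mu.CNT) : ANR := fun e ir => by
  obtain ⟨θ, θ', p, -⟩ := h0 e ir
  exact anc1 hO hK h1 hU hD hM hW hS hC p trivial fun _ _ => trivial

end Vale.Agent.P014Y.Rg
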