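import Vale.Agent.P014Y.Rg.St
import Vale.Agent.P014Y.Mu.Cnt
import Vale.Agent.P014Y.Mu.Lzy

/-! # P014Y, block Rg: rows CN0 and TW1 -/

set_option autoImplicit false
set_option linter.all false

noncomputable section

namespace Vale.Agent.P014Y.Rg

open Matrix
open Vale.Agent.P022 (GQ)
open Vale.Agent.P014U
open P004F.Pr (ac)
open P014Y.F (Crv Fld)
open Tp (G3 rho)
open Mu Mu.Ap
open Bo (dg)

variable {ρ : GQ → G3} {θ θ' : Ch}

theorem Lp.on1 (p : Lp ρ θ θ') {g : GQ} (h : ρ g = 1) : θ g = 1 ∧ θ' g = 1 := by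
  obtain ⟨v, v0, hv⟩ := p.ex
  have a := hv g
  have d := p.det g
  rw [h, one_mulVec] at a
  have t : θ g = 1 := smul_left_injective _ v0 (a.symm.trans (one_smul _ v).symm)
  rw [h, det_one, t, one_mul] at d
  exact ⟨t, d.symm⟩

theorem Lp.dg1 (p : Lp ρ θ θ') {g : GQ} (h : ρ g = 1) : dg θ θ' g = 1 := by
  ext i j
  fin_cases i <;> fin_cases j <;> simp [dg, p.on1 h]

theorem zx_eq (a : GQ →* L2.M2) (Γ T J χ P) : Zx a Γ T J χ P = Zm Γ T (aL a χ) P (X4F.Rb J) := by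
  have a : ∀ g (y : Fin 2 → X4F.Rb J), ac (ag a J χ g) y = ac (aL a χ g) y := fun g y => by
    rw [ag, ← map_pow]; rfl
  exact Set.ext fun x => and_congr_left fun _ =>
    ⟨fun k => ⟨fun g m h n => a g _ ▸ k.coc g m h n, k.out, k.lc, k.unr⟩,
      fun k => ⟨fun g m h n => (a g _).symm ▸ k.coc g m h n, k.out, k.lc, k.unr⟩⟩

/-- **row CN0** -/
theorem cn0 : CN0 := fun e b θ θ' p k i => by
  have G := gd b
  obtain ⟨B, hB⟩ := bound (Γ := b.Γ) (S := e.S.toFinset) (ρ := dg θ θ') ⟨⟨G.opn, G.idx, G.cx, G.two,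
    G.pr, map_one _, fun g _ h _ => map_mul _ g h, G.lc.imp fun W k =>
      ⟨k.1, fun w a m => p.dg1 (k.2 w a m)⟩, fun g a m => p.dg1 (G.unr g a m)⟩, G.pm⟩ k i
  refine ⟨B, fun c n χ le => ?_⟩
  obtain ⟨f, h⟩ := hB c.primeFactors (fun g => (χ g).val) (e.P pp)
    (fun l => Nat.prime_of_mem_primeFactors) le
  have z : ∀ J, nr b (dg θ θ') J c χ = Nat.card (Zm b.Γ (e.S.toFinset ∪ c.primeFactors)
      (aL (dg θ θ') fun g => (χ g).val) (e.P pp) (X4F.Rb J)) := fun J =>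
    congrArg (fun s : Set _ => Nat.card s) (zx_eq (dg θ θ') _ _ J _ _)
  simp only [z, zx_eq]
  refine ⟨h, fun J k => ?_⟩
  obtain ⟨f', h'⟩ := le_of (T := e.S.toFinset ∪ c.primeFactors) (P := e.P pp)
    (a := aL (dg θ θ') fun g => (χ g).val) i J fun x m =>
    funext₂ fun g s => by
      have := congrFun (k x m g) s
      rwa [tb, ← map_pow] at this
  exact ⟨Nat.card_pos.ne', h'⟩

/-- **row TW1** -/
theorem tw1 : TW1 := fun e b m n c χ m0 h crd H => by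
  refine ⟨⟨fun g a k a' => (h.ad.add g a k a').of_dvd (pow_dvd_pow _ (by omega)),
    fun g a => (pow_dvd_pow _ (by omega)).trans (h.ad.ker g a)⟩, h.sq, h.one, crd,
    fun q a => ?_, fun q a P o => ?_⟩
  · obtain ⟨hq, d, -⟩ := Nat.mem_primeFactors.1 a
    obtain ⟨o, o', -⟩ := h.out q hq d
    obtain ⟨g, k⟩ := H q hq d
    exact ⟨o, o', ⟨_, typ g o o', (pow_dvd_pow 3 (n.le_add_right 2)).trans
      ((Nat.modEq_iff_dvd' hq.one_le).1 g.md.symm)⟩, k⟩
  · obtain ⟨t, -, i, u⟩ := h.ram q P o (Nat.dvd_of_mem_primeFactors a)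
    refine ⟨t, i, ?_, fun g _ => ⟨(χ g).val, ?_⟩⟩ <;> simp only [u, val1]
    · exact fun k => absurd (Nat.dvd_one.1 k) (Nat.one_lt_pow m0.ne' (by decide)).ne'
    · rw [mul_one]

end Vale.Agent.P014Y.Rg
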