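import Vale.Agent.P014Y.Rg.Cn0
import Vale.Agent.P014Y.Rd.Mul
import Vale.Agent.P014Y.Rd.Fac
import Vale.Agent.P014Y.Rd.Gdr

/-! # P014Y, block Rg: row MUX -/

set_option autoImplicit false
set_option linter.all false

noncomputable section

namespace Vale.Agent.P014Y.Rg

open Matrix PowerSeries
open Vale.Agent.P022 (GQ)
open Vale.Agent.P022D.W (dec)
open Vale.Agent.P022K.G2 (oz)
open Vale.Agent.P014U
open P004K (RC1 RC2)
open P004F.Pr (ac)
open P014Y.F (Crv Fld)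
open Tp (G3 rho Lz nz)
open Bo (dg)
open Rd (rq ch r1 r2 Z0 Zr)

theorem sq1 (θ : Ch) (g : GQ) : θ g * θ g = 1 := by
  have z : ∀ x y : ZMod 3, x * y = 1 → x * x = 1 := by decide
  exact z _ (θ g⁻¹) (by rw [← map_mul, mul_inv_cancel, map_one])

/-- the character of the line -/
def cx (θ : Ch) (J : ℕ) {n : ℕ} (χ : GQ → ZMod n) (g : GQ) : F.Rb J :=
  rq J (C (θ g)) * ch (rq J) χ g

theorem nr_eq {e : Crv} (b : Fld e) (ρ : GQ → G3) (θ : Ch) (J c : ℕ) {n : ℕ} (χ : GQ → ZMod n) :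
    nr b ρ J c χ = Nat.card (Z0 b.Γ (b.T c) (r2 (rq J) (cx θ J χ) fun g => θ g • ρ g) (e.P 3)) := by
  have a : (r2 (rq J) (cx θ J χ) fun g => θ g • ρ g) =
      fun g => Tp.uu J (fun g => (χ g).val) g • (ρ g).map (Tp.c3 J) := funext fun g => by
    ext i j
    have := congrArg (fun x => rq J (C x)) (sq1 θ g)
    simp only [map_mul, map_one] at this
    simp only [r2, cx, ch, Tp.uu, Tp.c3, Matrix.smul_apply, map_apply, smul_eq_mul, RingHom.comp_apply,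
      map_mul, map_add, map_one]
    linear_combination ((1 + rq J X) ^ (χ g).val * rq J (C (ρ g i j))) * this
  rw [a, Rd.Ml.zs]
  exact Nat.card_congr (Equiv.subtypeEquivRight fun x => ⟨fun k => ⟨k.1.coc, k.1.out, k.1.lc, k.1.unr,
    fun g m => k.2 g m.2⟩, fun k => ⟨⟨k.1, k.2.1, k.2.2.1, k.2.2.2.1⟩,
      fun g m => k.2.2.2.2 g ⟨b.le 3 e.pm m, m⟩⟩⟩)

/-- **row MUX** -/
theorem mux (h1 : RC1) (h2 : RC2) : MUX := fun e b θ θ' p i B => ⟨2 * B, fun k c χ z l u v => by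
  refine ⟨_, le_rfl, ?_⟩
  replace v := u.trans v
  have c0 := zero_lt_one.trans z.one
  have G := Rd.Fc.g3 b c
  have om g : θ g * θ' g = oz 3 g := (p.det g).symm.trans (Rd.Fc.det e g)
  have pw : (1 + Rd.tt (rq (3 * 3 ^ k))) ^ pp ^ (k + 1) = 1 :=
    Rd.Gr.pw (Rd.Fc.tq _) (pow_succ' 3 k).ge
  have z1 : ∀ g ∈ P004K.Hc b.j c, rho e g = 1 → cx θ (3 * 3 ^ k) χ g = 1 := fun g m r => by
    obtain ⟨t, d⟩ := z.ad.ker g m
    rw [cx, (p.on1 r).1, ch, d, map_one, map_one, one_mul]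
    exact (pow_mul _ _ _).trans (by rw [pw, one_pow])
  obtain ⟨W, oW, w⟩ : ∃ W : Subgroup GQ, IsOpen (W : Set GQ) ∧ ∀ g ∈ W, rho e g = 1 :=
    ⟨_, e.rep.Kn_open 1, fun w m => e.tr_one.1 m⟩
  obtain ⟨s, m, s3, hs⟩ := e.aux
  obtain ⟨x, x0, hx⟩ := p.ex
  obtain ⟨φ, f⟩ := P022D.W.exists_phi (e.ov s m).1 (e.ov s m).2.1 (e.ov s m).2.2
  have M := (Rd.mul _ _ _ (Rd.Fc.tq (3 * 3 ^ k)) (by positivity) b.Γ (b.T c) (cx θ _ χ)
    (fun g => θ g • rho e g) (e.P 3)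
    (Rd.Gr.gd b.iq G.two G.thr G.pr (z1 1 (one_mem _) G.one) (fun g a g' a' => by
      have := z.ad.add g a g' a'
      simp only [cx, ch, map_mul]
      rw [pow_eq_pow_mod _ pw, show (χ (g * g')).val % pp ^ (k + 1) = _ from this,
        ← pow_eq_pow_mod _ pw, pow_add]
      ring)
      ⟨W ⊓ P004K.Hc b.j c, oW.inter (h1 b.K b.j b.iq c c0).2.1, fun g a => z1 g a.2 (w g a.1)⟩
      fun g a ⟨l, n, P, o, i⟩ => z1 g (P004F.Ra.unr_hc h2 b.iq c0 o (fun d => n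
        (Finset.mem_union_right _ (Nat.mem_primeFactors.2 ⟨o.1, d, c0.ne'⟩))) a i)
        (G.unr g a ⟨l, n, P, o, i⟩))
    ⟨⟨G.opn, G.idx, G.cx, G.two, G.pr, by rw [map_one, one_smul]; exact G.one,
      fun g a g' a' => by rw [map_mul, smul_mul_smul_comm]; exact congrArg _ (G.mul g a g' a'),
      ⟨W, oW, fun g _ a => by rw [(p.on1 (w g a)).1, w g a, one_smul]⟩, fun g a n => by
        have r : rho e g = 1 := G.unr g a n
        rw [(p.on1 r).1, r, one_smul]⟩, G.thr⟩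
    ⟨x, x0, .inl fun g _ => by rw [smul_mulVec, hx, smul_smul, sq1, one_smul]⟩
    (fun g _ => by rw [det_smul, p.det, Fintype.card_fin, sq, sq1, one_mul, om])
    (e.ov 3 e.pm) (b.le 3 e.pm) ⟨s, Finset.mem_union_left _ (List.mem_toFinset.2 m), ?_, _, e.ov s m,
      b.le s m, fun g a => by
        rw [cx, (p.on1 (hs g a)).1, map_one, map_one, one_mul]; exact Rd.Gr.dv0 _⟩).2.2 B l
  · have E : nr b (dg θ θ') (3 * 3 ^ k) c χ =
        Nat.card (Zr b.Γ (b.T c) (cx θ (3 * 3 ^ k) χ) (e.P 3)) *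
        Nat.card (Zr b.Γ (b.T c) (Rd.tw (rq _) (cx θ (3 * 3 ^ k) χ)) (e.P 3)) := by
      have s1 g : θ g • (dg θ θ' g : G3) = !![1, 0; 0, oz 3 g] := by
        ext i j
        fin_cases i <;> fin_cases j
        exacts [sq1 θ g, mul_zero _, mul_zero _, om g]
      rw [nr_eq b _ θ, Rd.Ml.zs, Rd.Ml.zs, Rd.Ml.zs]
      refine Rd.Ml.split ⟨⟨fun z => (fun _ => z 0, fun _ => z 1), fun w => ![w.1 0, w.2 0],
        fun z => funext fun i => by fin_cases i <;> rfl, fun w => Prod.ext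
          (funext fun i => by fin_cases i; rfl) (funext fun i => by fin_cases i; rfl)⟩,
        fun _ _ => rfl⟩ fun g _ z => Prod.ext (funext fun i => ?_) (funext fun i => ?_) <;>
      simp [ac, r1, r2, Rd.tw, s1, Fin.eq_zero i, mul_comm]
    rw [E] at v ⊢
    exact (M v).trans_eq (nr_eq b (rho e) θ _ c χ).symm
  · have d := e.det_fb (e.ov s m) s3 f
    have := congrArg det (hs φ (P022D.W.phi_mem (e.ov s m).1 (e.ov s m).2.1 f))
    rw [det_one, ← RingHom.mapMatrix_apply, ← RingHom.map_det] at this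
    have t : ((s : ℕ) : ZMod 3) = (1 : ℕ) := by
      rw [Nat.cast_one, ← this]; exact (map_natCast _ s).symm.trans (congrArg _ d.symm)
    exact (ZMod.natCast_eq_natCast_iff' s 1 3).1 t⟩

end Vale.Agent.P014Y.Rg
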