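import Vale.Agent.P014Y.Rg.St
import Vale.Agent.P014Y.Tp.On3

/-! # P014Y, block Rg: row ONR (helper6) -/

namespace Vale.Agent.P014Y.Rg

/-- **row ONR**, for any side condition -/
theorem onr (h : Tp.ON3) (C) : ONR C := fun e ρ r _ nc t t' =>
  (h e e ρ rfl rfl r nc t t').imp fun _ hT b le _ B => hT b b le (Tp.O3.same b) B

end Vale.Agent.P014Y.Rg
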