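import Vale.Agent.P014Y.Rg.St
import Vale.Agent.P014Y.Rk.Rae
import Vale.Agent.P014Y.Mu.Rse

/-! # P014Y, block Rg: the characters of a reducible curve, the bridge to Rk (helper40) -/

set_option autoImplicit false
set_option linter.all false

noncomputable section

namespace Vale.Agent.P014Y.Rg

open Matrix
open Vale.Agent.P022 (GQ)
open Vale.Agent.P014U
open P014Y.F (Crv Fld)
open Tp (rho)
open Mu (rb)
open Rd (Flg)

theorem Lp.flg {e : Crv} {θ θ' : Ch} (p : Lp (rho e) θ θ') : ∃ v, Flg (rb e) θ θ' v :=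
  p.ex.imp fun _ h => ⟨h.1, h.2, p.det⟩

theorem lp_of {e : Crv} {θ θ' : Ch} {v} (l : Flg (rb e) θ θ' v) : Lp (rho e) θ θ' :=
  ⟨⟨v, l.ne, l.ev⟩, l.dt⟩

/-- **the characters** -/
theorem red : RED := fun e ⟨v, n, h⟩ => by
  obtain ⟨θ, θ', l⟩ := Rd.ex_flg (rb e) n h
  exact ⟨θ, θ', lp_of l, fun k =>
    ⟨fun z => k ((Rd.eis_iff l).2 (.inl fun g => z ▸ rfl)),
      fun z => k ((Rd.eis_iff l).2 (.inr fun g => z ▸ rfl))⟩⟩

/-- the two words for a reducible image -/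
theorem ri_iff (e : Crv) : Ri e ↔ ¬ Top.Irr e.par.disc :=
  ⟨fun ⟨v, n, h⟩ i => (i v n).elim fun g k => (h g).elim k, fun n =>
    let ⟨θ, _, v, l⟩ := Rd.flg_of n
    ⟨v, l.ne, fun g => ⟨θ g, l.ev g⟩⟩⟩

/-- **the bridge from the block Rk** -/
theorem kz_of (k : Rk.KZ) (D : Ch → Ch → Prop) : KZ D := fun e b _ _ p _ =>
  p.flg.elim fun _ l => k e b _ (Rk.rae Mu.rse l)

end Vale.Agent.P014Y.Rg
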