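import Vale.Agent.P014Y.Rg.Up2
import Vale.Agent.P014Y.Tp.On3

/-! # P014Y, block Rg: row RH1 (helper6) -/

set_option linter.all false

open Matrix

noncomputable section

namespace Vale.Agent.P014Y.Rg

open Vale.Agent.P022 (Qb GQ)
open Vale.Agent.P022K.G2
open Tp Tp.Sl

theorem Lp.one {ρ : GQ → G3} {θ θ' : Ch} (l : Lp ρ θ θ') {g : GQ} (h : ρ g = 1) :
    θ g = 1 ∧ θ' g = 1 := by
  obtain ⟨v, n, k⟩ := l.ex
  have a : θ g = 1 := smul_left_injective _ n (by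
    change θ g • v = _ • v
    rw [← k, h, one_mulVec, one_smul])
  exact ⟨a, by simpa [h, a] using (l.det g).symm⟩

theorem Nt.ex {θ θ' : Ch} (h : Nt θ θ') : ∃ g, θ g = -1 ∧ θ' g = -1 := by
  have z : ∀ x : ZMod 3, x ≠ 0 → x ≠ 1 → x = -1 := by decide
  obtain ⟨g, a⟩ := DFunLike.ne_iff.1 h.1
  obtain ⟨k, b⟩ := DFunLike.ne_iff.1 h.2
  replace a := z _ (θ.ne g) a
  replace b := z _ (θ'.ne k) b
  by_cases c : θ' g = 1
  · by_cases d : θ k = 1
    · exact ⟨g * k, by simp [a, d], by simp [b, c]⟩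
    · exact ⟨k, z _ (θ.ne k) d, b⟩
  · exact ⟨g, a, z _ (θ'.ne g) c⟩

/-- **row RH1** -/
theorem rh1 : RH1 := fun e θ θ' l => by
  obtain ⟨r, tr, -⟩ := rho_row.1 e
  obtain ⟨c, -, oc⟩ := ex_c
  have dt g : θ g * θ' g = oz 3 g := (l.det g).symm.trans (det_oz r g)
  have z : ∀ x y o : ZMod 3, x * y = o → o ≠ 0 → x = o * y := by decide
  have q : ∀ x : ZMod 3, x ≠ 0 → x * x = 1 := by decide
  have t (g : GQ) : g (2 : Qb) = 2 := map_ofNat g 2
  let b (g : GQ) : G3 := !![θ g, θ' g * ka 3 2 g; 0, θ' g]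
  have b1 {g} (h : rho e g = 1) (k : ka 3 2 g = 0) : b g = 1 := by
    ext i j; fin_cases i <;> fin_cases j <;> simp [b, l.one h, k]
  have bd g : (b g).det = θ g * θ' g := by simp [b, det_fin_two]
  have n0 : (![1, 0] : Fin 2 → ZMod 3) ≠ 0 := by decide
  have ev g : b g *ᵥ ![1, 0] = θ g • ![1, 0] := by
    ext i; fin_cases i <;> simp [b, mulVec, dotProduct]
  have l1 : Lp b θ θ' := ⟨⟨_, n0, ev⟩, bd⟩
  have l2 : Lp (tw b) θ' θ := ⟨⟨_, n0, fun g => by
    rw [tw, smul_mulVec, ev, smul_smul, bd, mul_right_comm, q _ (θ.ne g), one_mul]⟩, fun g => by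
    rw [tw, det_smul, bd, Fintype.card_fin, pow_two, q _ (mul_ne_zero (θ.ne g) (θ'.ne g)), one_mul,
      mul_comm]⟩
  obtain ⟨W, o, hW⟩ := r.opn
  obtain ⟨U, lv, hU⟩ := ka_lv (p := 3) (b := 2) two_ne_zero
  obtain ⟨P, ov⟩ := P004R.Mu.ex_pl Nat.prime_two
  obtain ⟨τ, i, k⟩ := ex_tau (p := 3) ov (by decide)
  have rb : Rh b e.S.toFinset := by
    refine ⟨b1 r.one (hU 1 (one_mem _)).2, fun g h => ?_, ⟨W ⊓ U, o.inter lv.opn,
      fun g m => b1 (hW g m.1) (hU g m.2).2⟩, fun g m => b1 (r.unr g m) ?_,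
      fun g w h => (bd g).symm ▸ l.det g ▸ r.cyc g w h, r.pr, r.two, r.three⟩
    · ext i j
      fin_cases i <;> fin_cases j <;> simp [b, mul_apply, ka_coc two_ne_zero (t g) (t h)]
      rw [z _ _ _ (dt g) (oz_ne g)]; ring
    · obtain ⟨q, m, Q, o', i'⟩ := m
      exact ka_int (x := 2) o' (fun e => m (e ▸ r.three))
        (p_notMem (p := 2) o' fun e => m (e ▸ r.two)) i' (t g)
  refine ⟨b, rb, ⟨τ, c, fun e => ?_⟩, fun p P g o m f => ?_, fun p P g o m f => ?_,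
    fun b' => O3.im_of b' rb, l1, l2, fun nt => ?_⟩
  · have e1 := congrFun (congrFun e 0) 1
    have e3 := dt τ
    have e4 := (dt c).trans oc
    rw [mem_Gz.1 (inert_gz (p := 3) ov (by decide) i)] at e3
    rw [show ka 3 ((2 : ℕ) : Qb) τ = ka 3 2 τ from rfl] at k
    simp [b, mul_apply, k] at e1
    revert e1 e3 e4
    generalize θ τ = s
    generalize θ' τ = s'
    generalize θ c = u
    generalize θ' c = u'
    generalize ka 3 2 c = v
    revert s s' u u' v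
    decide
  · rw [tr p P g o m f, l.tr, l1.tr]
  · rw [tr p P g o m f, l.tr, l2.tr, add_comm]
  · obtain ⟨g, a, a'⟩ := nt.ex
    refine ⟨g * (g * g), ?_⟩
    rw [rb.mul, rb.mul]
    simp only [b, a, a']
    generalize ka 3 2 g = v
    revert v
    decide

end Vale.Agent.P014Y.Rg
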