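import Vale.Agent.P014Y.Rg.St
import Vale.Agent.P014Y.Tp.Spl

/-! # P014Y, block Rg: row UP2 (helper6) -/

set_option linter.all false

open Matrix

noncomputable section

namespace Vale.Agent.P014Y.Rg

open Vale.Agent.P022 (GQ)
open Tp
open Bo (dg)

theorem Ch.ne (θ : Ch) (g : GQ) : θ g ≠ 0 := ((Group.isUnit g).map θ).ne_zero

theorem ex_col : ∀ v : Fin 2 → ZMod 3, v ≠ 0 → ∃ X : G3, X.det = 1 ∧ X *ᵥ ![1, 0] = v := by
  decide +kernel

/-- the triangular form -/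
theorem Lp.tri {ρ : GQ → G3} {θ θ' : Ch} (l : Lp ρ θ θ') : ∃ (X : G3) (b : GQ → G3),
    IsUnit X.det ∧ (∀ g, ρ g * X = X * b g) ∧ (∀ g, b g 1 0 = 0) ∧
      (∀ g, b g 0 0 = θ g) ∧ ∀ g, b g 1 1 = θ' g := by
  obtain ⟨v, n, h⟩ := l.ex
  obtain ⟨X, d, e⟩ := ex_col v n
  have u : IsUnit X.det := d ▸ isUnit_one
  have k g : (X⁻¹ * (ρ g * X)) *ᵥ ![1, 0] = θ g • ![1, 0] := by
    rw [← mulVec_mulVec, ← mulVec_mulVec, e, h, mulVec_smul, ← e, mulVec_mulVec, nonsing_inv_mul X u,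
      one_mulVec]
  have k0 g : (X⁻¹ * (ρ g * X)) 0 0 = θ g := by simpa [mulVec, dotProduct] using congrFun (k g) 0
  have k1 g : (X⁻¹ * (ρ g * X)) 1 0 = 0 := by simpa [mulVec, dotProduct] using congrFun (k g) 1
  have c g := (mul_nonsing_inv_cancel_left X (ρ g * X) u).symm
  refine ⟨X, _, u, c, k1, k0, fun g => mul_left_cancel₀ (θ.ne g) ?_⟩
  have := congrArg Matrix.det (c g)
  rwa [det_mul, det_mul, d, mul_one, one_mul, l.det, det_fin_two, k0, k1, mul_zero, sub_zero,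
    eq_comm] at this

theorem Lp.tr {ρ : GQ → G3} {θ θ' : Ch} (l : Lp ρ θ θ') (g : GQ) : (ρ g).trace = θ g + θ' g := by
  obtain ⟨X, b, u, h, -, h0, h1⟩ := l.tri
  rw [← mul_nonsing_inv_cancel_right X (ρ g) u, h, trace_mul_cycle, nonsing_inv_mul X u, one_mul,
    trace_fin_two, h0, h1]

theorem Lp.le {ρ a : GQ → G3} {θ θ' : Ch} (l : Lp ρ θ θ') {Y : G3} (y : IsUnit Y.det)
    (k : ∀ g, a g * Y = Y * dg θ θ' g) : Le ρ a := fun Γ T N χ P => by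
  obtain ⟨X, b, u, h, h2, h0, h1⟩ := l.tri
  rw [show Nat.card (Zc Γ T ρ N χ P) = Nat.card (Zc Γ T b N χ P) from Ro.cc_card
    (X := X.map (c3 N)) (RingHom.map_det (c3 N) X ▸ u.map _)
    (fun g => Ro.sm_map (c3 N) (uu N χ g) (h g)) _]
  exact Sl.le_of y k (fun _ => rfl) (fun _ => rfl) h2
    (fun g => Fin.forall_fin_two.2 ⟨h0 g, h1 g⟩) Γ T N χ P

/-- **row UP2** -/
theorem up2 : UP2 := fun e b ρ θ θ' h J c n χ => h.elim
  (fun l => l.le (Y := 1) (by simp) (fun g => by simp) _ _ _ _ _)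
  fun l => l.le (Y := !![0, 1; 1, 0]) (by decide) (fun g => by
    ext i j; fin_cases i <;> fin_cases j <;> simp [dg, mul_apply, diagonal]) _ _ _ _ _

end Vale.Agent.P014Y.Rg
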