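import Vale.Agent.P014Y.Mu.All
import Vale.Agent.P014Y.Rk.Chva
import Vale.Agent.P014Y.Rk.Kla
import Vale.Agent.P014Y.Rk.Lst
import Vale.Agent.P014Y.Rk.Rsa
import Vale.Agent.P014Y.Rk.Twva
import Vale.Agent.P014Y.Rg.Cn0
import Vale.Agent.P014Y.Rg.Mux
import Vale.Agent.P014Y.Rg.Onr
import Vale.Agent.P014Y.Rg.Red
import Vale.Agent.P014Y.Rg.Rh1
import Vale.Agent.P014Y.Rg.Up2
import Vale.Agent.P014Y.Tp.All3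
import Vale.Agent.P014Y.C.Az.All
import Vale.Agent.P014Y.On0

/-! # P014Y, blocks Rk and Rg: wiring -/

set_option autoImplicit false

namespace Vale.Agent.P014Y

open P004K (x_rc1 x_rc2 x_rc3)

theorem Tp.on3_0 : Tp.ON3 := Tp.on3_all Top.alx_all C.Al.alx0 Ln.anb_all

theorem Rk.kz_of (a : Rk.KILA) (b : Rk.KILB) : Rk.KZ :=
  Rk.kz a Rk.kla b Bo.dsc2 Bo.lev2 Mu.rse Rk.rsa Rk.chva (Rk.twva x_rc1 x_rc2 x_rc3)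
    (Rk.lst x_rc1 x_rc2 x_rc3 Rk.rsa Mu.rse) Mu.lzy0

theorem Rg.anr_kz (k : Rk.KZ) : Rg.ANR :=
  Rg.anr' (Rg.onr Tp.on3_0 _) (Rg.kz_of k _) Rg.red Rg.rh1 Rg.up2 Rg.cn0 (Rg.mux x_rc1 x_rc2)
    Rg.tw1 Bo.tws Mu.cnt

theorem Rg.anr_ab (a : Rk.KILA) (b : Rk.KILB) : Rg.ANR := Rg.anr_kz (Rk.kz_of a b)

end Vale.Agent.P014Y
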