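import Vale.Agent.P014Y.Rg.Wr
import Vale.Agent.P014Y.Rg.AllB
import Vale.Agent.P014Y.Rd.All
import Vale.Agent.P014Y.Rk.Kila

/-! # P014Y, block Rg: closed -/

set_option autoImplicit false

namespace Vale.Agent.P014Y.Rg

/-- **the anchor for a reducible image** -/
theorem anr_all : ANR := anr_w Tp.on3_0 Rd.red3_all Rk.kila

end Vale.Agent.P014Y.Rg
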