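import Vale.Agent.P014Y.Rg.Mul1
import Vale.Agent.P014Y.Bo.Lv1
import Vale.Agent.P014Y.Pr.All
import Vale.Agent.P014Y.F.Cn.Cnt

/-! # P014Y, reducible planes: the split plane has at most as many cocycles as the extension
(helper42) -/

set_option autoImplicit false
set_option linter.all false

noncomputable section

namespace Vale.Agent.P014Y.Rg

open NumberField Matrix Module Cardinal PowerSeries
open Vale.Agent.P022 Vale.Agent.P022K Vale.Agent.P022K.G2
open Vale.Agent.P022D.W (dec)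
open Vale.Agent.P022E.GW (Ov)
open Vale.Agent.P014U
open L2 (W M2)
open X4F (Rb)
open X4F.Pr (Iu ac ac_zero ac_add ac_smul mul_ac one_ac ex_lev fin_of)
open P004S (wp)
open Mu (Zx ag)
open Bo (dg)
open scoped Pointwise Classical

namespace Ml

variable [Pp] {Γ : Subgroup GQ} {T : Finset ℕ} {P : Ideal (𝓞 Qb)} {a : GQ →* M2} {χ : GQ → ℕ}
  {J N : ℕ}

/-- **one character: at most as many obstructions as cocycles** -/
theorem line {θ : GQ → F} {b : GQ → M2} (G : Pr.Ge Γ T b) (r : Rp (Iu Γ T) Γ (ch θ)) (o : Ov pp P)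
    (le : dec P ≤ Γ) (fr : ∃ l ∈ T, l ≠ pp ∧ ∃ Q, Ov l Q ∧ dec Q ≤ Γ ∧ ∀ g ∈ dec Q, θ g = 1) :
    hd (Iu Γ T) Γ (dec P) (ch θ) ≤ rk (Zd (Iu Γ T) Γ (dec P) (ch θ)) := by
  obtain ⟨l, hl, l2, Q, oQ, d, t⟩ := fr
  have k := Pr.core (y := fun _ : Unit => fp P) G.opn G.idx G.cx G.pm G.pr inferInstance (by simp) r
    (fun _ => mem_ab_fp.2 ⟨pp, G.pm, o⟩) (fun _ _ _ _ _ => rfl) (.inr ⟨l, hl, l2, Q, oQ, d,
      fun x m => by rw [ch, t x m, one_smul], fun _ g _ c =>
        l2 (GW.Pl.ov_uniq oQ (Sum.inl.inj c ▸ Mu.Ds.ov_sm o g))⟩)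
  rw [Fintype.sum_unique, Fintype.sum_unique, Pr.wt_fp o, if_pos rfl, st_fp, inf_eq_right.2 le,
    Subgroup.relIndex_eq_one.2 le, rank_self, Nat.cast_one, one_add_one_eq_two] at k
  refine Cx.can (Pq.fin_z G.opn G.pr inferInstance r) ((hd_le r le).trans ?_)
  rw [add_comm (rk (Zd _ _ _ _))]
  exact add_le_add_left (Cx.can (by simpa using natCast_lt_aleph0 (n := 2)) k) _

/-- the action on the plane -/
def sg (a : GQ →* M2) (χ : GQ → ℕ) (J : ℕ) (g : GQ) : End F (Fin 2 → Rb J) where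
  toFun x := (1 + X : L) ^ χ g • ac ((a g).map (C : F →+* L)) x
  map_add' x y := by rw [ac_add, smul_add]
  map_smul' c x := by rw [RingHom.id_apply, ← cs, ← cs, ac_smul, smul_comm]

theorem sg_ap (g : GQ) (x : Fin 2 → Rb J) :
    sg a χ J g x = (1 + X : L) ^ χ g • ac ((a g).map (C : F →+* L)) x := rfl

theorem ag_eq (g : GQ) (x : Fin 2 → Rb J) : ac (ag a J χ g) x = sg a χ J g x := by
  rw [ag, ← map_pow, sg_ap]
  funext i
  simp only [ac, Pi.smul_apply, Finset.smul_sum, smul_smul]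
  rfl

theorem zx_eq (n : Γ.Normal) (o : IsOpen (Γ : Set GQ)) :
    Zx a Γ T J χ P = Zd (Iu Γ T) Γ (dec P) (sg a χ J) := by
  refine Set.ext fun x => ⟨fun ⟨⟨h1, h2, ⟨W, oW, h3⟩, h4⟩, h5⟩ => ⟨⟨fun g m h k => ?_, h2, ?_⟩, h5⟩,
    fun ⟨⟨h1, h2, V, hV, v⟩, h5⟩ => ⟨⟨fun g m h k => ?_, h2, ⟨V, hV.opn, fun w m => ?_⟩,
      fun w m => ?_⟩, h5⟩⟩
  · rw [h1 g m h k, ag_eq]
  · exact (ex_lev n o oW (c := x) (fun g m w k e => by rw [h1 g m w k, h3 w e, ac_zero, add_zero])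
      fun g m w k => by rw [h1 g m w k.1, h4 w k.2, ac_zero, add_zero]).imp fun V hV =>
        ⟨hV.1, fun w k e => by rw [← h3 1 (one_mem _), ← hV.2 1 (one_mem _) w k e, one_mul]⟩
  · rw [h1 g m h k, ag_eq]
  · exact (em (w ∈ Γ)).elim (fun c => v w c m) (h2 w)
  · exact (em (w ∈ Γ)).elim (fun c => v w c (hV.sub ⟨c, m⟩)) (h2 w)

theorem kl (h : J ≤ pp ^ N) : Kl (pp ^ N) (Rb J) := fun u v e x => by
  obtain ⟨p, rfl⟩ := Ideal.Quotient.mk_surjective x
  rw [sm_mq, sm_mq, map_mul, map_mul, Lev.pw_eq h e]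

theorem card_le {X Y : Type} [AddCommGroup X] [Module F X] [AddCommGroup Y] [Module F Y]
    {Z : Submodule F X} {Z' : Submodule F Y} (h : rk Z ≤ rk Z') (f : rk Z' < ℵ₀) :
    Nat.card Z ≤ Nat.card Z' := by
  have := Module.rank_lt_aleph0_iff.1 f
  rw [Module.natCard_eq_pow_finrank (K := F) (V := Z'), Nat.card_zmod]
  exact (fin_of (h.trans_eq (finrank_eq_rank _ _).symm)).2

theorem al2 {R M : Type} [CommRing R] [AddCommGroup M] [Module R M] {p q v v' y y' t t' b w z : R}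
    (h : p * v + q * v' = t * w) (k : p * y + q * y' = b * w + t' * z) (e : R) (m n : M) :
    w • e • (t • m + b • n) + z • e • t' • n =
      e • (p • (v • m + y • n) + q • (v' • m + y' • n)) := by
  linear_combination (norm := module) (-e * h) • m - (e * k) • n

theorem al3 {R M : Type} [CommRing R] [AddCommGroup M] [Module R M] {v v' w w' : R}
    (h : v * w' - v' * w = 1) {x y : M} (k : v • x + w • y = 0) (k' : v' • x + w' • y = 0) :
    x = 0 ∧ y = 0 :=
  ⟨by linear_combination (norm := module) w' • k - w • k' - h • x,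
    by linear_combination (norm := module) v • k' - v' • k - h • y⟩

end Ml

open Ml

variable [Pp]

/-- **multiplicativity, one direction** -/
theorem mulg {a : GQ →* M2} {θ θ' : GQ →* Mu.F} {v : W} (v0 : v ≠ 0) (hv : ∀ g, a g *ᵥ v = θ g • v)
    (dt : ∀ g, (a g).det = θ g * θ' g) {Γ : Subgroup GQ} {T : Finset ℕ} {J N : ℕ} {χ : GQ → ℕ}
    {P : Ideal (𝓞 Qb)} (G : Pr.Ge Γ T a) (o : Ov pp P) (le : dec P ≤ Γ)
    (fr : ∃ l ∈ T, l ≠ pp ∧ ∃ Q, Ov l Q ∧ dec Q ≤ Γ ∧ ∀ g ∈ dec Q, a g = 1)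
    (ad : ∀ g ∈ Γ, ∀ h ∈ Γ, χ (g * h) ≡ χ g + χ h [MOD pp ^ N])
    (op : ∃ U : Subgroup GQ, IsOpen (U : Set GQ) ∧ ∀ g ∈ Γ, g ∈ U → pp ^ N ∣ χ g)
    (un : ∀ g ∈ Γ, g ∈ In (T : Set ℕ) → pp ^ N ∣ χ g) (hJ : J + J ≤ pp ^ N) :
    Finite (Zx a Γ T (J + J) χ P) ∧
      Nat.card (Zx (dg θ θ') Γ T J χ P) ≤ Nat.card (Zx a Γ T (J + J) χ P) := by
  have nm := Subgroup.normal_of_index_eq_two G.idx
  obtain ⟨y, hy⟩ := L2.ex_y v v0
  have t1 : ∀ g, a g = 1 → θ g = 1 := fun g e => by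
    have := hv g
    rw [e, one_mulVec] at this
    exact smul_left_injective _ v0 (this.symm.trans (one_smul _ _).symm)
  have hw : ∀ g, a g *ᵥ y = wp (a g *ᵥ y) y • v + θ' g • y := fun g => by
    have k := P004S.wp_mulVec (a g) v y
    rw [hv, P004S.wp_smul_left, dt, hy, mul_one] at k
    replace k := ((Group.isUnit g).map θ).mul_left_cancel k
    generalize a g *ᵥ y = p at k ⊢
    funext i
    simp only [wp, Pi.add_apply, Pi.smul_apply, smul_eq_mul] at k hy ⊢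
    fin_cases i
    · show p 0 = _ * v 0 + _ * y 0
      linear_combination y 0 * k - p 0 * hy
    · show p 1 = _ * v 1 + _ * y 1
      linear_combination y 1 * k - p 1 * hy
  obtain ⟨V, hV, lv⟩ : ∃ V, Lv (Iu Γ T) V ∧ ∀ w ∈ Γ, w ∈ V → a w = 1 ∧ pp ^ N ∣ χ w := by
    obtain ⟨U, oU, e⟩ := op
    obtain ⟨U', oU', e'⟩ := G.lc
    have z : ∀ g ∈ Γ, ∀ w ∈ Γ, a w = 1 → pp ^ N ∣ χ w →
        (a (g * w), (χ (g * w) : ZMod (pp ^ N))) = (a g, (χ g : ZMod (pp ^ N))) :=
      fun g m w k c d => by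
        rw [map_mul, c, mul_one, (ZMod.natCast_eq_natCast_iff _ _ _).2 (ad g m w k), Nat.cast_add,
          (ZMod.natCast_eq_zero_iff _ _).2 d, add_zero]
    refine (ex_lev (W := U ⊓ U') (c := fun g => (a g, (χ g : ZMod (pp ^ N)))) nm G.opn (oU.inter oU') (fun g m w k c => z g m w k (e' w k c.2)
      (e w k c.1)) fun g m w k => z g m w k.1 (G.unr w k.1 k.2) (un w k.1 k.2)).imp
        fun V hV => ⟨hV.1, fun w k c => ?_⟩
    have := hV.2 1 (one_mem _) w k c
    rw [one_mul, map_one, (ZMod.natCast_eq_zero_iff _ _).2 (e 1 (one_mem _) (one_mem _))] at this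
    exact ⟨congrArg Prod.fst this, (ZMod.natCast_eq_zero_iff _ _).1 (congrArg Prod.snd this)⟩
  have d : Dt (Iu Γ T) Γ (pp ^ N) θ θ' (fun g => wp (a g *ᵥ y) y) χ := ⟨map_mul θ, map_mul θ',
    fun g h => by
      conv_lhs => rw [map_mul, ← mulVec_mulVec, hw h, mulVec_add, mulVec_smul, mulVec_smul, hv]
      simp only [P004S.wp_add_left, P004S.wp_smul_left, hy]
      ring, ad, V, hV, fun w k c => by
      have e := (lv w k c).1
      have := dt w
      rw [e, t1 w e, one_mul, det_one] at this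
      exact ⟨⟨t1 w e, this.symm, by simp [e, wp, mul_comm]⟩, (lv w k c).2⟩⟩
  have r : Rp (Iu Γ T) Γ (sg a χ (J + J)) := by
    have k : Kl (pp ^ N) (Fin 2 → Rb (J + J)) := fun u v e x => funext fun i => kl hJ u v e (x i)
    have t : ∀ g ∈ Γ, g ∈ V → sg a χ (J + J) g = 1 := fun g m n => LinearMap.ext fun x => by
      rw [sg_ap, k _ _ (Nat.modEq_zero_iff_dvd.2 (lv g m n).2), (lv g m n).1, pow_zero, one_smul,
        Matrix.map_one _ (map_zero _) (map_one _), one_ac]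
      rfl
    refine ⟨t 1 (one_mem _) (one_mem _), fun g m h n => LinearMap.ext fun x => ?_, V, hV, t⟩
    rw [Module.End.mul_apply, sg_ap, sg_ap, sg_ap, k _ _ (ad g m h n), map_mul, Matrix.map_mul,
      mul_ac, ac_smul, pow_add (1 + X : L), mul_smul]
  have := F.Cn.fin (J + J)
  have f := (Submodule.rank_mono (show Zd (Iu Γ T) Γ (dec P) (sg a χ (J + J)) ≤ _ from
    fun _ m => m.1)).trans_lt (Pq.fin_z G.opn G.pr (.of_finite) r)
  rw [zx_eq nm G.opn, zx_eq nm G.opn]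
  refine ⟨have := Module.rank_lt_aleph0_iff.1 f; Module.finite_of_finite F, card_le
    ((le_trans (zd_le (π := (LinearMap.proj 0).prod (.proj 1)) (fun g _ x => ?_) fun x x' e => ?_)
    (chain d le (line G (rp_ch ⟨map_one θ, fun g _ h _ => map_mul θ g h⟩
      ⟨V, hV, fun w k c => t1 w (lv w k c).1⟩) o le (fr.imp fun l k => ⟨k.1, k.2.1, k.2.2.imp
        fun Q k => ⟨k.1, k.2.1, fun g m => t1 g (k.2.2 g m)⟩⟩))
      (fun m l u v e x => Prod.ext (kl (l.trans hJ) u v e _) (kl (by omega) u v e _)) J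
      le_rfl)).trans (zd_le (π := .pi fun i => v i • .fst F _ _ + y i •
        (mu J J (J + J) le_rfl).restrictScalars F ∘ₗ .snd F _ _) (fun g _ x => ?_)
        ((injective_iff_map_eq_zero _).2 fun x e => ?_))) f⟩
  · have z : ∀ y, mu J J J (by omega) y = 0 := fun y => by
      obtain ⟨p, rfl⟩ := Ideal.Quotient.mk_surjective y
      exact mq_zero.2 (dvd_mul_right _ _)
    rw [act_ap, z, sg_ap]
    refine Prod.ext ?_ ?_ <;> simp [ac, dg]
  · exact funext fun i => by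
      fin_cases i
      exacts [congrArg Prod.fst e, congrArg Prod.snd e]
  · funext i
    have e1 := congrArg (C : F →+* L) (congrFun (hv g) i)
    have e2 := congrArg (C : F →+* L) (congrFun (hw g) i)
    rw [act_ap, sg_ap]
    simp only [mulVec, dotProduct, Fin.sum_univ_two, Pi.add_apply, Pi.smul_apply, smul_eq_mul,
      map_add, map_mul] at e1 e2
    simp only [LinearMap.pi_apply, LinearMap.add_apply, LinearMap.smul_apply, LinearMap.fst_apply,
      LinearMap.comp_apply, LinearMap.snd_apply, LinearMap.restrictScalars_apply, Prod.smul_fst,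
      Prod.smul_snd, map_smul, ← cs, ac, Fin.sum_univ_two, Pi.smul_apply, Matrix.map_apply]
    exact al2 e1 e2 _ _ _
  · have k := congrArg (C : F →+* L) hy
    rw [wp, map_sub, map_mul, map_mul, map_one] at k
    obtain ⟨k1, k2⟩ := al3 k (x := x.1) (y := mu J J (J + J) le_rfl x.2)
      (by rw [cs, cs]; exact congrFun e 0) (by rw [cs, cs]; exact congrFun e 1)
    refine Prod.ext k1 ?_
    obtain ⟨p, hp⟩ := Ideal.Quotient.mk_surjective x.2
    rw [← hp, mu_mq, mq_zero, pow_add, mul_dvd_mul_iff_left (pow_ne_zero J X_ne_zero)] at k2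
    exact hp.symm.trans (mq_zero.2 k2)

end Vale.Agent.P014Y.Rg
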