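import Vale.Agent.P004F.Pr.Cnt

/-! # P014Y, reducible planes: cocycles with values in a quotient (pure group theory; helper42) -/

set_option autoImplicit false
set_option linter.all false

noncomputable section

namespace Vale.Agent.P014Y.Rg.Ml

open Module Cardinal
open Vale.Agent.P022K.G2 Vale.Agent.P022K.G2.Cn Vale.Agent.P022K.G2.Sb
open Vale.Agent.P004F.Pr (Zk Bk cnt)

variable {G : Type} [Group G] [TopologicalSpace G] {k : Type} [Field k] {N₁ N N₂ : Type}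
  [AddCommGroup N₁] [Module k N₁] [AddCommGroup N] [Module k N] [AddCommGroup N₂] [Module k N₂]
  {I : Set G} {Γ D : Subgroup G} {ρ₁ : G → End k N₁}
  {ρ : G → End k N} {ρ₂ : G → End k N₂} {i : N₁ →ₗ[k] N} {π : N →ₗ[k] N₂}

/-- the cocycles which vanish on `D` -/
def Zd (I : Set G) (Γ D : Subgroup G) (ρ : G → End k N) : Submodule k (G → N) where
  carrier := {c | c ∈ Z1 I Γ ρ ∧ ∀ d ∈ D, c d = 0}
  add_mem' {x y} hx hy := ⟨add_mem hx.1 hy.1, fun d hd => by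
    rw [Pi.add_apply, hx.2 d hd, hy.2 d hd, add_zero]⟩
  zero_mem' := ⟨zero_mem _, fun _ _ => rfl⟩
  smul_mem' r x hx := ⟨Submodule.smul_mem _ r hx.1, fun d hd => by
    rw [Pi.smul_apply, hx.2 d hd, smul_zero]⟩

/-- the obstructions -/
def hd (I : Set G) (Γ D : Subgroup G) (ρ : G → End k N) : Cardinal :=
  rq (Zc I Γ (fun _ : Unit => D) ρ) (Bk I Γ (fun _ : Unit => D) ρ (0 : Unit → G → PUnit →ₗ[k] N))

theorem zd_map (e : ∀ g ∈ Γ, ∀ n, π (ρ g n) = ρ₂ g (π n)) {c : G → N} (h : c ∈ Zd I Γ D ρ) :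
    π.compLeft G c ∈ Zd I Γ D ρ₂ :=
  ⟨⟨fun g hg l hl => (congrArg π (h.1.1 g hg l hl)).trans (by rw [map_add, e g hg]; rfl),
    fun g hg => (congrArg π (h.1.2.1 g hg)).trans (map_zero π), h.1.2.2.imp fun _ hW =>
      ⟨hW.1, fun w hw m => (congrArg π (hW.2 w hw m)).trans (map_zero π)⟩⟩,
    fun d hd => (congrArg π (h.2 d hd)).trans (map_zero π)⟩

theorem zd_le (e : ∀ g ∈ Γ, ∀ n, π (ρ g n) = ρ₂ g (π n)) (j : Function.Injective π) :
    rk (Zd I Γ D ρ) ≤ rk (Zd I Γ D ρ₂) :=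
  rk_le (π.compLeft G) (fun _ h => zd_map e h) fun _ _ c => funext fun g => j (congrFun c g)

theorem hd_le (r : Rp I Γ ρ) (le : D ≤ Γ) :
    hd I Γ D ρ + rk (Z1 I Γ ρ) ≤ sh I Γ (fun _ : Unit => D) ρ + rk (Z1 ∅ D ρ) + rk (Zd I Γ D ρ) := by
  have h := cnt (D := fun _ : Unit => D) (b := (0 : Unit → G → PUnit →ₗ[k] N)) r (fun _ => le)
    fun _ _ => by
      rw [show (fun g => (0 : Unit → G → PUnit →ₗ[k] N) _ g _) = 0 from rfl, Set.indicator_zero']
      exact zero_mem _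
  rw [rank_punit, add_zero, Fintype.sum_unique] at h
  refine h.trans (add_le_add_right (rk_le (.fst k _ PUnit) (fun x m => ?_)
    fun _ _ e => Prod.ext e (Subsingleton.elim _ _)) _)
  exact ⟨m.1, m.2 ()⟩

/-- **a quotient by a module with few obstructions has fewer cocycles** -/
theorem one (S : Ses Γ ρ₁ ρ ρ₂ i π) (R : Rp I Γ ρ) (le : D ≤ Γ)
    (h : hd I Γ D ρ₁ ≤ rk (Zd I Γ D ρ₁)) : rk (Zd I Γ D ρ₂) ≤ rk (Zd I Γ D ρ) := by
  obtain ⟨⟨r, hr⟩, s, hs⟩ := ex_rs S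
  let o : (G → N₂) →ₗ[k] (G → G → N₁) × (Unit → G → N₁) :=
    .inl _ _ _ ∘ₗ (r.compLeft G).compLeft G ∘ₗ d1 ρ ∘ₗ s.compLeft G
  have a1 : ∀ x ∈ Zd I Γ D ρ₂, ∀ g ∈ Γ, ∀ l ∈ Γ, π (d1 ρ (fun y => s (x y)) g l) = 0 :=
    fun x hx g hg l hl => by
      rw [d1_map (S.eqp g hg _), show (fun y => π (s (x y))) = x from funext fun _ => hs _]
      exact d1_z1 hx.1 hg hl
  rw [← rq_add (Zd I Γ D ρ₂) ((Zd I Γ D ρ).map (π.compLeft G)),
    ← rk_map (π.compLeft G) (Zd I Γ D ρ), add_comm]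
  refine add_le_add (Submodule.rank_mono inf_le_right) ((le_trans (b := hd I Γ D ρ₁)
    (rq_le o (fun x hx => ?_) fun x hx hb => ?_) h).trans (rk_le (Z' := _ ⊓ _) (i.compLeft G)
      (fun x hx => ⟨zd_map S.eqi hx, funext fun _ => pi_i S _⟩)
      fun x y e => funext fun g => S.inj (congrFun e g)))
  · have c := d1_mem R (c1_map (Z1.c1 hx.1) s)
    refine ⟨⟨fun g hg l hl m hm => ?_, c2_map c.2 r⟩, fun _ => ⟨zero_mem _, fun g hg l hl => ?_⟩⟩
    · have := congrArg r (c.1 g hg l hl m hm)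
      rw [map_add, map_add, rr S hr hg (a1 x hx l hl m hm)] at this
      exact this
    · show r (d1 ρ (fun y => s (x y)) g l) = d1 ρ₁ 0 g l
      simp [d1_apply, hx.2 g hg, hx.2 l hl, hx.2 _ (mul_mem hg hl)]
  · obtain ⟨w, hw, _, h1, h2⟩ := hb
    have c := sub_mem (c1_map (Z1.c1 hx.1) s) (c1_map hw i)
    refine ⟨(Γ : Set G).indicator _, ⟨z1_of R.one c fun g hg l hl => ?_, fun d hd => ?_⟩,
      funext fun g => ?_⟩
    · rw [map_sub, Pi.sub_apply, Pi.sub_apply, ← d1_map (S.eqi g hg _), ← h1 g hg l hl, sub_eq_zero]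
      exact (ir S hr (a1 x hx g hg l hl)).symm
    · have : w d = 0 := by simpa [o] using (h2 () d hd).symm
      rw [Set.indicator_of_mem (le hd), Pi.sub_apply, hx.2 d hd, this, map_zero, map_zero, sub_zero]
    · change π (Set.indicator _ _ g) = _
      by_cases hg : g ∈ Γ
      · rw [Set.indicator_of_mem hg]
        exact (map_sub π _ _).trans ((congrArg₂ _ (hs _) (pi_i S _)).trans (sub_zero _))
      · rw [Set.indicator_of_notMem hg, map_zero, hx.1.2.1 g hg]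

end Vale.Agent.P014Y.Rg.Ml
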