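import Vale.Agent.P014Y.Rg.Mul0
import Vale.Agent.P014U.X4F.St

/-! # P014Y, reducible planes: a chain of modules from the split plane to the extension (helper42) -/

set_option autoImplicit false
set_option linter.all false

noncomputable section

namespace Vale.Agent.P014Y.Rg.Ml

open Module Cardinal PowerSeries
open Vale.Agent.P022K.G2
open Vale.Agent.P014U
open X4F (Rb)

variable [Pp] {G : Type} [Group G] [TopologicalSpace G]

abbrev F : Type := ZMod pp

abbrev L : Type := PowerSeries F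

/-- the powers of `1 + X` depend only on the exponent modulo `q` -/
def Kl (q : ℕ) (M : Type) [AddCommGroup M] [Module L M] : Prop :=
  ∀ u v, u ≡ v [MOD q] → ∀ x : M, (1 + X : L) ^ u • x = (1 + X : L) ^ v • x

/-- two characters, a cocycle, an additive function modulo `q` -/
structure Dt (I : Set G) (Γ : Subgroup G) (q : ℕ) (θ θ' β : G → F) (χ : G → ℕ) : Prop where
  m1 : ∀ g h, θ (g * h) = θ g * θ h
  m2 : ∀ g h, θ' (g * h) = θ' g * θ' h
  m3 : ∀ g h, β (g * h) = θ g * β h + β g * θ' h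
  ad : ∀ g ∈ Γ, ∀ h ∈ Γ, χ (g * h) ≡ χ g + χ h [MOD q]
  lv : ∃ W, Lv I W ∧ ∀ w ∈ Γ, w ∈ W → (θ w = 1 ∧ θ' w = 1 ∧ β w = 0) ∧ q ∣ χ w

variable {I : Set G} {Γ D : Subgroup G} {q : ℕ} {θ θ' β : G → F} {χ : G → ℕ}

section act

variable {A B : Type} [AddCommGroup A] [Module L A] [Module F A] [IsScalarTower F L A]
  [AddCommGroup B] [Module L B] [Module F B] [IsScalarTower F L B]

/-- the action on an extension -/
def act (θ θ' β : G → F) (χ : G → ℕ) (w : B →ₗ[L] A) (g : G) : End F (A × B) :=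
  LinearMap.restrictScalars F ((1 + X : L) ^ χ g •
    ((C (θ g) : L) • LinearMap.fst L A B + (C (β g) : L) • w ∘ₗ LinearMap.snd L A B).prod
      ((C (θ' g) : L) • LinearMap.snd L A B))

theorem act_ap (w : B →ₗ[L] A) (g : G) (x : A × B) : act θ θ' β χ w g x = (1 + X : L) ^ χ g •
    ((C (θ g) : L) • x.1 + (C (β g) : L) • w x.2, (C (θ' g) : L) • x.2) := rfl

theorem cs (c : F) (x : A) : (C c : L) • x = c • x := algebraMap_smul L c x

theorem alg {R M : Type} [CommRing R] [AddCommGroup M] [Module R M] (e e' a a' b b' c : R)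
    (x y : M) : (e * e') • ((a * a') • x + (a * b' + b * c) • y) =
      e • (a • e' • (a' • x + b' • y) + b • e' • c • y) := by module

theorem rp (d : Dt I Γ q θ θ' β χ) (k : Kl q (A × B)) (w : B →ₗ[L] A) :
    Rp I Γ (act θ θ' β χ w) := by
  obtain ⟨W, hW, e⟩ := d.lv
  have t : ∀ g ∈ Γ, g ∈ W → act θ θ' β χ w g = 1 := fun g m n => LinearMap.ext fun x => by
    obtain ⟨⟨e1, e2, e3⟩, e4⟩ := e g m n
    rw [act_ap, k _ _ (Nat.modEq_zero_iff_dvd.2 e4), e1, e2, e3]
    simp
  refine ⟨t 1 (one_mem _) (one_mem _), fun g m h n => LinearMap.ext fun x => ?_, W, hW, t⟩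
  rw [Module.End.mul_apply, act_ap, act_ap, act_ap, k _ _ (d.ad g m h n), d.m1, d.m2, d.m3]
  refine Prod.ext ?_ ?_ <;>
    simp only [Prod.smul_fst, Prod.smul_snd, map_smul, map_add, map_mul, pow_add]
  · exact alg _ _ _ _ _ _ _ _ _
  · simp only [smul_smul]
    exact congrArg (· • x.2) (by ring)

end act

abbrev mq (J : ℕ) : L →+* Rb J := Ideal.Quotient.mk _

theorem mq_zero {J : ℕ} {p : L} : mq J p = 0 ↔ X ^ J ∣ p :=
  Ideal.Quotient.eq_zero_iff_mem.trans Ideal.mem_span_singleton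

/-- multiplication by `X ^ k` -/
def mu (i k j : ℕ) (h : j ≤ i + k) : Rb i →ₗ[L] Rb j :=
  Submodule.mapQ _ _ (LinearMap.mulLeft L (X ^ k)) fun p e => by
    rw [Submodule.mem_comap, LinearMap.mulLeft_apply, Ideal.mem_span_singleton]
    refine (pow_dvd_pow _ h).trans ?_
    rw [pow_add, mul_comm]
    exact mul_dvd_mul_left _ (Ideal.mem_span_singleton.1 e)

theorem mu_mq {i k j : ℕ} (h : j ≤ i + k) (p : L) : mu i k j h (mq i p) = mq j (X ^ k * p) := rfl

theorem sm_mq {j : ℕ} (r p : L) : r • mq j p = mq j (r * p) := rfl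

theorem ses (J m : ℕ) (h : m + 1 ≤ J + J) : Ses Γ (ch θ) (act θ θ' β χ (mu J J (m + 1) h))
    (act θ θ' β χ (mu J J m (by omega))) (.toSpanSingleton F _ (mq (m + 1) (X ^ m), 0))
    (((mu (m + 1) 0 m (by omega)).prodMap .id).restrictScalars F) := by
  have n : mq (m + 1) (X ^ m) ≠ 0 := fun e => by
    have := X_pow_dvd_iff.1 (mq_zero.1 e) m (by omega)
    simp at this
  have fx : ∀ n : ℕ, (1 + X : L) ^ n • mq (m + 1) (X ^ m) = mq (m + 1) (X ^ m) := fun n => by
    induction n with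
    | zero => rw [pow_zero, one_smul]
    | succ n ih => rw [pow_succ (1 + X : L), mul_smul, add_smul, one_smul, sm_mq X, ← pow_succ',
        mq_zero.2 dvd_rfl, add_zero, ih]
  refine ⟨fun c c' e => smul_left_injective F n (congrArg Prod.fst e), fun ⟨x, y⟩ => ?_,
    fun ⟨x, y⟩ => ?_, fun g _ c => ?_, fun g _ ⟨x, y⟩ => ?_⟩
  · obtain ⟨p, rfl⟩ := Ideal.Quotient.mk_surjective x
    exact ⟨(mq _ p, y), Prod.ext (congrArg (mq m) (by simp)) rfl⟩
  · obtain ⟨p, rfl⟩ := Ideal.Quotient.mk_surjective x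
    refine ⟨fun e => ?_, fun ⟨c, e⟩ => ?_⟩
    · obtain ⟨r, hr⟩ := mq_zero.1 (show mq m (X ^ 0 * p) = 0 from congrArg Prod.fst e)
      rw [pow_zero, one_mul] at hr
      obtain ⟨s, hs⟩ : X ∣ r - C (constantCoeff r) := X_dvd_iff.2 (by simp)
      refine ⟨constantCoeff r, Prod.ext ?_ ((smul_zero _).trans (congrArg Prod.snd e).symm)⟩
      show constantCoeff r • mq (m + 1) (X ^ m) = mq (m + 1) p
      rw [← cs, sm_mq, eq_comm, ← sub_eq_zero, ← map_sub, mq_zero, hr]
      exact ⟨s, by linear_combination X ^ m * hs⟩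
    · rw [← e, LinearMap.toSpanSingleton_apply, map_smul]
      refine smul_eq_zero_of_right _ (Prod.ext ?_ rfl)
      exact mq_zero.2 (dvd_mul_left _ _)
  · rw [LinearMap.toSpanSingleton_apply, LinearMap.toSpanSingleton_apply, map_smul, act_ap,
      ch_apply, mul_comm, mul_smul]
    refine congrArg _ (Prod.ext ?_ (by simp))
    simp only [Prod.smul_fst, map_zero, smul_zero, add_zero]
    rw [smul_comm, fx, cs]
  · obtain ⟨p, rfl⟩ := Ideal.Quotient.mk_surjective y
    rw [act_ap, act_ap]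
    refine Prod.ext ?_ rfl
    simp only [Prod.smul_fst, LinearMap.restrictScalars_apply, LinearMap.prodMap_apply, map_smul,
      map_add, Prod.map, LinearMap.id_apply, mu_mq, pow_zero, one_mul]

/-- **the chain** -/
theorem chain (d : Dt I Γ q θ θ' β χ) (le : D ≤ Γ) (h : hd I Γ D (ch θ) ≤ rk (Zd I Γ D (ch θ)))
    {J : ℕ} (k : ∀ m ≤ J + J, Kl q (Rb m × Rb J)) (i : ℕ) : ∀ l : J + i ≤ J + J,
    rk (Zd I Γ D (act θ θ' β χ (mu J J J (by omega)))) ≤
      rk (Zd I Γ D (act θ θ' β χ (mu J J (J + i) l))) := by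
  induction i with
  | zero => exact fun _ => le_rfl
  | succ i ih => exact fun l => (ih (by omega)).trans (one (ses J (J + i) l) (rp d (k _ l) _) le h)

end Vale.Agent.P014Y.Rg.Ml
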