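import Vale.Agent.P014Y.Rg.Red
import Vale.Agent.P014Y.Rg.Rh1
import Vale.Agent.P014Y.Rg.Onr
import Vale.Agent.P014Y.Rg.Mux
import Vale.Agent.P014Y.Rk.Kla
import Vale.Agent.P014Y.Rk.Rsa
import Vale.Agent.P014Y.Rk.Chva
import Vale.Agent.P014Y.Rk.Twva
import Vale.Agent.P004K.Rc.All

/-! # P014Y, block Rg: the wiring -/

set_option autoImplicit false
set_option linter.all false

namespace Vale.Agent.P014Y.Rg

open P004K P014U

/-- two characters which are not trivial -/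
theorem kz_w (k : Rk.KILA) : KZ Nt := fun e b θ θ' p nt => p.flg.elim fun _ l =>
  Rk.kza k Rk.kla Bo.dsc2 Bo.lev2 Mu.rse Rk.rsa Rk.chva (Rk.twva x_rc1 x_rc2 x_rc3)
    (Mu.lzy x_rc1 x_rc2) b (Rk.rae Mu.rse l) ((Rk.Rz.nf_or (Rk.dg_dg θ θ')).resolve_right
      fun ⟨j, t⟩ => by
        fin_cases j
        exacts [nt.1 (MonoidHom.ext t), nt.2 (MonoidHom.ext t)])

theorem anr_w (on : Tp.ON3) (r : Rd.RED3) (k : Rk.KILA) : ANR :=
  anr r (onr on _) (kz_w k) red rh1 up2 cn0 (mux x_rc1 x_rc2) tw1 Bo.tws Mu.cnt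

theorem anr_z (on : Tp.ON3) (k : Rk.KZ) : ANR :=
  anr' (onr on _) (kz_of k _) red rh1 up2 cn0 (mux x_rc1 x_rc2) tw1 Bo.tws Mu.cnt

end Vale.Agent.P014Y.Rg
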